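import Mathlib

/-!
# P218F: smooth hypersurfaces as regular level sets (definitions used in statements)

`E` is a Euclidean space; the statements use `E = ℝ³`.
-/

open MeasureTheory Metric Filter Topology Set
open scoped ContDiff RealInnerProductSpace

noncomputable section

namespace Vale.Agent.P218F

variable {E : Type*} [NormedAddCommGroup E] [InnerProductSpace ℝ E] [CompleteSpace E]

/-- the trace of an endomorphism -/
def tr (M : E →L[ℝ] E) : ℝ := LinearMap.trace ℝ E (M : E →ₗ[ℝ] E)

/-- the unit normal field `n = ∇w / |∇w|` of the level sets of `w` -/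
def nor (w : E → ℝ) (x : E) : E := ‖gradient w x‖⁻¹ • gradient w x

/-- the orthogonal projection `v ↦ v - ⟨n, v⟩ n` to the hyperplane with unit normal `n` -/
def tang (n : E) : E →L[ℝ] E := ContinuousLinearMap.id ℝ E - (innerSL ℝ n).smulRight n

/-- the shape operator `A = Dn ∘ P` of the level set of `w` through `x` -/
def shape (w : E → ℝ) (x : E) : E →L[ℝ] E := fderiv ℝ (nor w) x ∘L tang (nor w x)

/-- the mean curvature `H = tr A`; the mean curvature vector is `-H n` -/
def mean (w : E → ℝ) (x : E) : ℝ := tr (shape w x)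

/-- `|A|² = tr A²` -/
def sff2 (w : E → ℝ) (x : E) : ℝ := tr (shape w x ∘L shape w x)

/-- `(M t)_{a < t < b}` is a smooth mean curvature flow of compact embedded hypersurfaces without
boundary: the space-time track is proper over `(a, b)`, and locally it is the zero set of a smooth
function `u` with nonvanishing spatial gradient for which `∂u/∂t = |∇u| H` on the track, that is,
the normal velocity is the mean curvature vector -/
structure IsSmoothMCF (M : ℝ → Set E) (a b : ℝ) : Prop where
  cpt : ∀ c d, a < c → d < b → IsCompact {p : ℝ × E | p.1 ∈ Icc c d ∧ p.2 ∈ M p.1}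
  loc : ∀ t ∈ Ioo a b, ∀ x ∈ M t, ∃ u : ℝ → E → ℝ, ContDiff ℝ ∞ (Function.uncurry u) ∧
    gradient (u t) x ≠ 0 ∧ ∀ᶠ p : ℝ × E in 𝓝 (t, x), (p.2 ∈ M p.1 ↔ u p.1 p.2 = 0) ∧
      (p.2 ∈ M p.1 →
        deriv (fun s => u s p.2) p.1 = ‖gradient (u p.1) p.2‖ * mean (u p.1) p.2)

/-- `S` is a smooth properly embedded self-shrinker, on which `|A|² = a` and `H² = h`: it is
closed, locally the zero set of a smooth function `w` with nonvanishing gradient, and
`H = ⟨x, n⟩ / 2` -/
structure IsShrinker (S : Set E) (a h : E → ℝ) : Prop where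
  closed : IsClosed S
  loc : ∀ x ∈ S, ∃ w : E → ℝ, ContDiff ℝ ∞ w ∧ gradient w x ≠ 0 ∧
    (∀ᶠ y in 𝓝 x, y ∈ S ↔ w y = 0) ∧
    mean w x = ⟪x, nor w x⟫ / 2 ∧ a x = sff2 w x ∧ h x = mean w x ^ 2

/-- either `a` is bounded on the surface `S`, or
`∫_{S ∩ B_r(y)} a ≤ C (1 + ∫_{S ∩ B_{20r}(y)} h)` for all `y` and `r` (integrals for the area) -/
def CurvBound [MeasurableSpace E] [BorelSpace E] (S : Set E) (a h : E → ℝ) : Prop :=
  (∃ C, ∀ x ∈ S, a x ≤ C) ∨ ∃ C, ∀ y r, 0 < r →
    ∫ x in ball y r, a x ∂(μHE[2] : Measure E).restrict S ≤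
      C * (1 + ∫ x in closedBall y (20 * r), h x ∂(μHE[2] : Measure E).restrict S)

end Vale.Agent.P218F
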