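import Vale.Agent.P218.Defs
import Vale.Agent.P218F.St

/-!
# P218F: almost regular weak flows (definitions used in statements)
-/

open MeasureTheory Metric Filter Topology Set
open scoped ContDiff
open Vale.Agent.P218 (densityRatio)

noncomputable section

namespace Vale.Agent.P218F

variable {E : Type*} [NormedAddCommGroup E] [InnerProductSpace ℝ E] [CompleteSpace E]

/-- `(t, x)` is a regular point: near `(t, x)` the space-time track of `M` is a smooth mean
curvature flow, that is, the zero set of a smooth function `u` with nonvanishing spatial gradient,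
and `∂u/∂t = |∇u| H` on the track -/
def IsRegularPoint (M : ℝ → Set E) (t : ℝ) (x : E) : Prop :=
  ∃ u : ℝ → E → ℝ, ContDiff ℝ ∞ (Function.uncurry u) ∧
    gradient (u t) x ≠ 0 ∧ ∀ᶠ p : ℝ × E in 𝓝 (t, x), (p.2 ∈ M p.1 ↔ u p.1 p.2 = 0) ∧
      (p.2 ∈ M p.1 →
        deriv (fun s => u s p.2) p.1 = ‖gradient (u p.1) p.2‖ * mean (u p.1) p.2)

/-- `K = (H² - |A|²) / 2` is the Gauss curvature on the surface `S` -/
def IsGauss (S : Set E) (K : E → ℝ) : Prop :=
  ∀ x ∈ S, ∃ w : E → ℝ, ContDiff ℝ ∞ w ∧ gradient w x ≠ 0 ∧ (∀ᶠ y in 𝓝 x, y ∈ S ↔ w y = 0) ∧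
    K x = (mean w x ^ 2 - sff2 w x) / 2

/-- `(M t)_{a < t < b}` is an almost regular flow of compact sets with bounded genus: the track is
proper over `(a, b)` and is the closure of its regular part, points of Gaussian density one are
regular (unit-regularity), almost every time is regular, and at regular times the total curvature
`4 π (1 - genus)` of the components is bounded below -/
structure IsAlmostRegularFlow [FiniteDimensional ℝ E] [MeasurableSpace E] [BorelSpace E]
    (M : ℝ → Set E) (a b : ℝ) : Prop where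
  cpt : ∀ c d, a < c → d < b → IsCompact {p : ℝ × E | p.1 ∈ Icc c d ∧ p.2 ∈ M p.1}
  dense : ∀ t ∈ Ioo a b, ∀ x ∈ M t,
    (t, x) ∈ closure {p : ℝ × E | p.2 ∈ M p.1 ∧ IsRegularPoint M p.1 p.2}
  unit : ∀ t ∈ Ioo a b, ∀ x ∈ M t,
    Tendsto (densityRatio 2 (fun s => (μHE[2] : Measure E).restrict (M s)) x t) (𝓝[>] 0) (𝓝 1) →
    IsRegularPoint M t x
  ae : ∀ᵐ t, t ∈ Ioo a b → ∀ x ∈ M t, IsRegularPoint M t x
  genus : ∃ g : ℝ, ∀ t ∈ Ioo a b, (∀ x ∈ M t, IsRegularPoint M t x) → ∀ K, IsGauss (M t) K →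
    ∀ x ∈ M t, -g ≤ ∫ y in connectedComponentIn (M t) x, K y ∂μHE[2]

end Vale.Agent.P218F
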