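import Vale.Agent.P218F.St
import Vale.Agent.P218E.Gen
import Vale.Agent.P218R.Ori
import Vale.Agent.P218R.Base

/-!
# P218F: the definitions of `St` in terms of those of P218R and P218E
-/

open MeasureTheory Metric Filter Topology Set
open scoped ContDiff RealInnerProductSpace
open Vale.Agent.P366W
open Vale.Agent.P218R
open Vale.Agent.P218E (IsSmoothFlow)

noncomputable section

namespace Vale.Agent.P218F

theorem tr_eq (M : E3 →L[ℝ] E3) : tr M = trc M := (trc_eq_trace M).symm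

theorem nor_le (w : E3 → ℝ) (x : E3) : ‖nor w x‖ ≤ 1 := by
  rw [nor, norm_smul, norm_inv, norm_norm]
  exact inv_mul_le_one_of_le₀ le_rfl (norm_nonneg _)

theorem inner_nor (w : E3 → ℝ) (x v : E3) : ⟪nor w x, fderiv ℝ (nor w) x v⟫ = 0 := by
  by_cases h0 : gradient w x = 0
  · simp [nor, h0]
  by_cases hd : DifferentiableAt ℝ (nor w) x
  · have h1 : ‖nor w x‖ = 1 := by
      rw [nor, norm_smul, norm_inv, norm_norm, inv_mul_cancel₀ (norm_ne_zero_iff.2 h0)]
    have hm : IsLocalMax (fun y => ‖nor w y‖ ^ 2) x := Eventually.of_forall fun y => by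
      simp only [h1]
      exact pow_le_pow_left₀ (norm_nonneg _) (nor_le w y) 2
    have := DFunLike.congr_fun (hm.hasFDerivAt_eq_zero hd.hasFDerivAt.norm_sq) v
    simpa using this
  · simp [fderiv_zero_of_not_differentiableAt hd]

theorem mean_eq (w : E3 → ℝ) (x : E3) : mean w x = dvg (nor w) x := by
  have : fderiv ℝ (nor w) x ∘L (innerSL ℝ (nor w x)).smulRight (nor w x) =
      (innerSL ℝ (nor w x)).smulRight (fderiv ℝ (nor w) x (nor w x)) := by
    ext1 v
    simp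
  rw [mean, tr_eq, shape, tang, ContinuousLinearMap.comp_sub, trc_sub, this, trc_smulRight,
    ContinuousLinearMap.comp_id, dvg_eq, innerSL_apply_apply, inner_nor, sub_zero]

theorem IsSmoothMCF.flow {M : ℝ → Set E3} {a b : ℝ} (h : IsSmoothMCF M a b) :
    IsSmoothFlow M a b := by
  refine ⟨h.cpt, fun t ht x hx => ?_⟩
  obtain ⟨u, h1, h2, h3⟩ := h.loc t ht x hx
  refine ⟨u, h1, h2, h3.mono fun p hp => ⟨hp.1, fun h' => ?_⟩⟩
  rw [hp.2 h', mean_eq]
  rfl

/-- normal and shape operator, computed from a local defining function -/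
theorem shape_loc {S : Srf} (hS : S.Ok) {x : E3} (hx : S.w x = 0) {u : E3 → ℝ}
    (hu : ContDiff ℝ ∞ u) (h0 : gradient u x ≠ 0) (e : ∀ᶠ y in 𝓝 x, S.w y = 0 ↔ u y = 0) :
    ∃ ε : ℝ, ε * ε = 1 ∧ S.n x = ε • nor u x ∧ S.A x = ε • shape u x := by
  have pr : ∀ y, S.w y = 0 → gradient u y ≠ 0 → (∀ᶠ z in 𝓝 y, S.w z = 0 ↔ u z = 0) →
      ∃ d : ℝ, gradient S.w y = d • gradient u y := fun y hy a1 a3 => by
    obtain ⟨d, hd⟩ := tan_prop (hu.contDiffAt.of_le one_le) (a3.self_of_nhds.1 hy)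
      (grad_ne_iff.1 a1) (hS.dw y) (a3.mono fun z hz => hz.2)
    exact ⟨d, by rw [gradient, hd, map_smul, gradient]⟩
  obtain ⟨c, hc⟩ := pr x hx h0 e
  have c0 : c ≠ 0 := fun h => hS.reg x hx (by rw [hc, h, zero_smul])
  have sg := smooth_gradient hu
  have h1 : ∀ᶠ y in 𝓝 x, gradient u y ≠ 0 := sg.continuous.continuousAt.eventually_ne h0
  have h2 : ∀ᶠ y in 𝓝 x, 0 < c * ⟪gradient S.w y, gradient u y⟫ :=
    (continuous_const.mul ((smooth_gradient hS.sw).continuous.inner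
      sg.continuous)).continuousAt.eventually (lt_mem_nhds (show 0 < c * ⟪_, gradient u x⟫ by
        rw [hc, real_inner_smul_left, ← mul_assoc]
        exact mul_pos (mul_self_pos.2 c0) (real_inner_self_pos.2 h0)))
  have dg := sg.differentiable (by simp) x
  have dN : DifferentiableAt ℝ (nor u) x :=
    ((dg.norm ℝ h0).inv (norm_ne_zero_iff.2 h0)).smul dg
  have h3 : ∀ᶠ y in 𝓝 x, S.w y = 0 → S.n y = (c / |c|) • nor u y := by
    filter_upwards [h1, h2, e.eventually_nhds] with y a1 a2 a3 hy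
    obtain ⟨d, hd'⟩ := pr y hy a1 a3
    rw [hd', real_inner_smul_left, ← mul_assoc] at a2
    have a4 := pos_of_mul_pos_left a2 real_inner_self_nonneg
    rw [(hS.nrm y hy).self_of_nhds, hd', norm_smul, nor, smul_smul, smul_smul, Real.norm_eq_abs]
    congr 1
    rcases pos_and_pos_or_neg_and_neg_of_mul_pos a4 with ⟨b1, b2⟩ | ⟨b1, b2⟩
    · rw [abs_of_pos b1, abs_of_pos b2]
      field_simp
    · rw [abs_of_neg b1, abs_of_neg b2]
      have := b2.ne
      field_simp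
  have e2 : c / |c| * (c / |c|) = 1 := by
    rw [div_mul_div_comm, abs_mul_abs_self, div_self (mul_self_pos.2 c0).ne']
  have hP : S.P x = tang (nor u x) := ContinuousLinearMap.ext fun v => by
    rw [Srf.P_apply, h3.self_of_nhds hx, real_inner_smul_left, smul_smul, mul_right_comm, e2,
      one_mul]
    simp [tang]
  refine ⟨c / |c|, e2, h3.self_of_nhds hx, ?_⟩
  rw [Srf.A, hS.tan hx (hS.dn x) (dN.const_smul (c / |c|)) h3, fderiv_const_smul dN, hP]
  rfl

theorem IsShrinker.srf {G : Set E3} {a h : E3 → ℝ} (hG : IsShrinker G a h)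
    (hc : CurvBound G a h) : ∃ S : Srf, S.G = G ∧ S.Ok ∧ (∀ x ∈ S.G, S.φ x = 0) ∧
      ((∃ C, ∀ x ∈ S.G, S.A2 x ≤ C) ∨ ∃ C, S.GBd C) := by
  obtain ⟨w, w1, w2, w3⟩ := ori E3 G hG.closed fun p hp => by
    obtain ⟨u, h1, h2, h3, -⟩ := hG.loc p hp
    exact ⟨u, h1, grad_ne_iff.1 h2, h3⟩
  have hS := Srf.of_ok w1 fun x hx => grad_ne_iff.2 (w3 x ((w2 x).2 hx))
  have e : (Srf.of w).G = G := Set.ext fun x => (w2 x).symm
  generalize Srf.of w = S at hS e
  subst e
  have key : ∀ x ∈ S.G, S.φ x = 0 ∧ S.A2 x = a x ∧ S.H x ^ 2 = h x := fun x hx => by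
    obtain ⟨u, h1, h2, h3, h4, h5, h6⟩ := hG.loc x hx
    obtain ⟨ε, e1, e2, e3⟩ := shape_loc hS hx h1 h2 h3
    have hH : S.H x = ε * mean u x := by rw [Srf.H, e3, trc_smul, mean, tr_eq]
    refine ⟨?_, ?_, ?_⟩
    · rw [Srf.φ, hH, e2, h4, real_inner_smul_right]
      ring
    · rw [Srf.A2, e3, ContinuousLinearMap.smul_comp, ContinuousLinearMap.comp_smul, smul_smul, e1,
        one_smul, h5, sff2, tr_eq]
    · rw [hH, mul_pow, sq ε, e1, one_mul, h6]
  have hm : ∀ᵐ x ∂S.μ, x ∈ S.G := ae_restrict_mem hG.closed.measurableSet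
  refine ⟨S, rfl, hS, fun x hx => (key x hx).1, ?_⟩
  refine hc.imp (fun ⟨C, hC⟩ => ⟨C, fun x hx => (key x hx).2.1.trans_le (hC x hx)⟩)
    fun ⟨C, hC⟩ => ⟨C, fun y r hr => ?_⟩
  rw [integral_congr_ae (ae_restrict_of_ae (hm.mono fun x hx => (key x hx).2.1)),
    integral_congr_ae (ae_restrict_of_ae (hm.mono fun x hx => (key x hx).2.2))]
  exact hC y r hr

end Vale.Agent.P218F
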