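import Vale.Agent.P218F.Sing
import Vale.Agent.P218F.Br
import Vale.Agent.P218Z.Defs

/-!
# P218F: the definitions of `Sing` in terms of those of P218Z
-/

open MeasureTheory Metric Filter Topology Set
open scoped ContDiff RealInnerProductSpace
open Vale.Agent.P366W
open Vale.Agent.P218 (densityRatio)
open Vale.Agent.P218R Vale.Agent.P218Z

noncomputable section

namespace Vale.Agent.P218F

theorem regularAt_iff {M : ℝ → Set E3} {t : ℝ} {x : E3} : RegularAt M t x ↔ RegPt M t x := by
  simp only [RegularAt, RegPt, mean_eq]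
  rfl

theorem IsSmallSingFlow.small_sing {M : ℝ → Set E3} {a b : ℝ} (h : IsSmallSingFlow M a b) :
    IsSmallSing M a b := by
  refine ⟨h.cpt, fun t ht x hx => ?_, fun δ hδ => ?_, fun t ht x hx h1 => ?_, ?_⟩
  · simpa only [regularAt_iff] using h.dense t ht x hx
  · obtain ⟨t, x, r, h1, h2, h3⟩ := h.small δ hδ
    exact ⟨fun i => (t i, x i), r, h1,
      fun p hp => h2 ⟨hp.2.1, hp.1.1, fun h' => hp.1.2 (regularAt_iff.1 h')⟩, h3⟩
  · refine regularAt_iff.1 (h.unit t ht x hx (h1.congr fun r => ?_))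
    rw [gs, densityRatio, mul_pow, Real.sq_sqrt (by positivity), div_eq_inv_mul]
  · obtain ⟨g, hg⟩ := h.genus
    refine ⟨g, fun t ht rt S hS e x hx => ?_⟩
    rw [Srf.μ, e, Measure.restrict_restrict_of_subset (connectedComponentIn_subset _ _)]
    refine hg t ht (fun y hy => regularAt_iff.2 (rt y hy)) S.K (fun y hy => ?_) x hx
    have hy' : S.w y = 0 := show y ∈ S.G from e ▸ hy
    obtain ⟨ε, e1, -, e3⟩ := shape_loc hS hy' hS.sw (hS.reg y hy') (.of_forall fun _ => .rfl)
    refine ⟨S.w, hS.sw, hS.reg y hy', .of_forall fun z => e ▸ .rfl, ?_⟩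
    rw [Srf.K, dt, e3, trc_smul, ContinuousLinearMap.smul_comp, ContinuousLinearMap.comp_smul,
      smul_smul, e1, one_smul, mul_pow, sq ε, e1, one_mul, mean, sff2, tr_eq, tr_eq]

end Vale.Agent.P218F
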