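import Vale.Agent.P218.Defs
import Vale.Agent.P218F.St

/-!
# P218F: almost regular Brakke flows (definitions used in statements)
-/

open MeasureTheory Metric Filter Topology Set
open scoped ContDiff
open Vale.Agent.P218 (densityRatio)

noncomputable section

namespace Vale.Agent.P218F

variable {E : Type*} [NormedAddCommGroup E] [InnerProductSpace ℝ E] [CompleteSpace E]

/-- `K = (H² - |A|²) / 2` is the Gauss curvature on the surface `S` -/
def IsGaussCurv (S : Set E) (K : E → ℝ) : Prop :=
  ∀ x ∈ S, ∃ w : E → ℝ, ContDiff ℝ ∞ w ∧ gradient w x ≠ 0 ∧ (∀ᶠ y in 𝓝 x, y ∈ S ↔ w y = 0) ∧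
    K x = (mean w x ^ 2 - sff2 w x) / 2

/-- the Gaussian density of a plane of multiplicity one, for Mathlib's `μH[2]` -/
def planeDensity : ℝ :=
  densityRatio 2 (fun _ => (μH[2] : Measure (EuclideanSpace ℝ (Fin 2)))) 0 0 1

variable [MeasurableSpace E] [BorelSpace E]

/-- `(t, x)` is a regular point of `μ`: near `(t, x)`, `μ_s = ℋ² ⌞ {u_s = 0}` for a smooth function
`u` with nonvanishing spatial gradient, and the surfaces `{u_s = 0}` (possibly empty) move by mean
curvature, `∂u/∂s = |∇u| H` -/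
def IsRegularPt (μ : ℝ → Measure E) (t : ℝ) (x : E) : Prop :=
  ∃ u : ℝ → E → ℝ, ContDiff ℝ ∞ (Function.uncurry u) ∧ gradient (u t) x ≠ 0 ∧
    ∃ r > (0 : ℝ), ∀ s ∈ Ioo (t - r) (t + r),
      (μ s).restrict (ball x r) = Measure.restrict μH[2] (ball x r ∩ {y | u s y = 0}) ∧
      ∀ y ∈ ball x r, u s y = 0 →
        deriv (fun s => u s y) s = ‖gradient (u s) y‖ * mean (u s) y

/-- on the time interval `(a, b)` the flow `μ` is unit-regular (points with the Gaussian density of
a plane are regular), almost every time is regular, and at regular times the total curvature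
`4 π (1 - genus)` of the components of the surface `supp μ_t` is bounded below -/
structure IsAlmostRegular [FiniteDimensional ℝ E] (μ : ℝ → Measure E) (a b : ℝ) : Prop where
  unit : ∀ t ∈ Ioo a b, ∀ x,
    Tendsto (densityRatio 2 μ x t) (𝓝[>] 0) (𝓝 planeDensity) → IsRegularPt μ t x
  ae : ∀ᵐ t, t ∈ Ioo a b → ∀ x, IsRegularPt μ t x
  genus : ∃ g : ℝ, ∀ t ∈ Ioo a b, (∀ x, IsRegularPt μ t x) → ∀ K, IsGaussCurv (μ t).support K →
    ∀ x ∈ (μ t).support, -g ≤ ∫ y in connectedComponentIn (μ t).support x, K y ∂μHE[2]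

end Vale.Agent.P218F
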